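import Crest.Agent.N207.C.Lip
import Crest.Agent.N207.E.Cut

-- ▼ part N207/Rad/Touch
section

/-!
# Row 207, block P0 (helper89): a function with small values and small Hessian has small gradient
-/

set_option autoImplicit false
set_option linter.dupNamespace false
set_option linter.unusedSectionVars false
open Set MeasureTheory Filter Topology
open scoped ContDiff

noncomputable section

namespace Crest.Agent.N207.Rad

variable {M : Type*} [TopologicalSpace M] [CompactSpace M] [MeasurableSpace M] {H : HC M}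

/-- a function with gradient at most `k` on a ball is `k`-Lipschitz from the centre -/
theorem lip_k (A : H.Alg) (D : H.Dist) {t : ℝ} (ht : t ∈ Ioo 0 H.T) {u : M → ℝ} (hu : H.S0 u)
    {x y : M} {r k : ℝ} (hk : 0 < k) (h : ∀ z, H.d t x z < r → H.gam t u u z ≤ k ^ 2)
    (hy : H.d t x y < r) : |u y - u x| ≤ k * H.d t x y := by
  have h1 := D.lip t ht (u := fun z => k⁻¹ * u z) (x := x) (y := y) (r := r) (A.s0_cmul _ hu)
    (fun z hz => by
      rw [A.gam_cmul ht _ hu (A.s0_cmul _ hu), A.gam_cmul' ht _ hu hu]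
      have := h z hz
      calc k⁻¹ * (k⁻¹ * H.gam t u u z) ≤ k⁻¹ * (k⁻¹ * k ^ 2) := by gcongr
        _ = 1 := by field_simp) hy
  rw [← mul_sub, abs_mul, abs_of_pos (inv_pos.2 hk), inv_mul_le_iff₀ hk] at h1
  exact h1

/-- the norm of the gradient is Lipschitz -/
theorem grad_lip (A : H.Alg) (E : H.Evo) (D : H.Dist) {t : ℝ} (ht : t ∈ Ioo 0 H.T) {u : M → ℝ}
    (hu : H.S0 u) {x y : M} {r k : ℝ} (hk : 0 < k)
    (h : ∀ z, H.d t x z < r → H.hh t u z ≤ k ^ 2) (hy : H.d t x y < r) :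
    √(H.gam t u u x) ≤ √(H.gam t u u y) + k * H.d t x y := by
  refine le_of_forall_pos_le_add fun e he => ?_
  have hG := A.s0_gam ht hu hu
  have hp : ∀ z, 0 < H.gam t u u z + e ^ 2 := fun z => by
    have := A.gam_nonneg t ht hu z; positivity
  have hS : H.S0 fun z => H.gam t u u z + e ^ 2 := A.s0_add hG (A.s0_const _)
  have h1 := lip_k A D ht (A.s0_sqrt hS hp) (x := x) (y := y) (r := r) hk (fun z hz => by
    have hc : ContDiffOn ℝ ∞ (fun s : ℝ => √s) (Ioi 0) :=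
      fun s hs => (Real.contDiffAt_sqrt (ne_of_gt hs)).contDiffWithinAt
    rw [A.gam_comp2 ht isOpen_Ioi hc hp hS z, (Real.hasDerivAt_sqrt (hp z).ne').deriv,
      A.gam_add t ht hG (A.s0_const _) hS, A.gam_const ht _ hS, add_zero,
      A.gam_add' ht hG (A.s0_const _) hG, A.gam_const' ht _ hG, add_zero]
    have h2 := E.kato_gam t ht hu z
    have h3 := h z hz
    have h4 := A.gam_nonneg t ht hu z
    have h5 := E.hh_nonneg t ht hu z
    rw [div_pow, one_pow, mul_pow, Real.sq_sqrt (hp z).le, div_mul_eq_mul_div, one_mul,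
      div_le_iff₀ (by have := hp z; positivity)]
    nlinarith [mul_le_mul_of_nonneg_left h3 h4, sq_nonneg (k * e)]) hy
  have h2 : √(H.gam t u u x) ≤ √(H.gam t u u x + e ^ 2) :=
    Real.sqrt_le_sqrt (by nlinarith [sq_nonneg e])
  have h3 : √(H.gam t u u y + e ^ 2) ≤ √(H.gam t u u y) + e := by
    have h4 := A.gam_nonneg t ht hu y
    rw [Real.sqrt_le_left (by positivity)]
    nlinarith [Real.sq_sqrt h4, Real.sqrt_nonneg (H.gam t u u y)]
  have := (abs_le.1 h1).1
  linarith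

/-- interpolation: small values and small Hessian give a small gradient -/
theorem grad_small : ∃ C : ℝ, 0 < C ∧ ∀ {M : Type*} [TopologicalSpace M] [CompactSpace M]
    [MeasurableSpace M] {H : HC M}, H.Alg → H.Evo → H.Dist → ∀ {t : ℝ}, t ∈ Ioo 0 H.T →
    ∀ {u : M → ℝ}, H.S0 u → ∀ {x : M} {r m k : ℝ}, 0 < r → 0 < m → 0 < k →
    (∀ y, H.d t x y < r → |u y| ≤ m) → (∀ y, H.d t x y < r → H.hh t u y ≤ k ^ 2) →
    √(H.gam t u u x) ≤ C * m / r + k * r := by
  obtain ⟨K, hK, hK1, -⟩ := E.zeta_bounds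
  refine ⟨12 * K + 1, by positivity, ?_⟩
  intro M _ _ _ H A Ev D t ht u hu x r m k hr hm hk h0 h2
  obtain ⟨v, hv, hv1, hv2⟩ := D.approx t ht x (r / 10) (by positivity)
  have hv' : H.S0 fun y => (4 / r) * v y := A.s0_cmul _ hv
  set p : M → ℝ := fun y => E.zeta ((4 / r) * v y) with hp
  have hpS : H.S0 p := A.s0_compU E.zeta_cd hv'
  set F : M → ℝ := fun y => u y + 3 * m * p y with hF
  have hFS : H.S0 F := A.s0_add hu (A.s0_cmul _ hpS)
  have hdc := D.cont t ht x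
  have hKc : IsCompact {y | H.d t x y ≤ 9 / 10 * r} :=
    (isClosed_le hdc continuous_const).isCompact
  have hx : x ∈ {y | H.d t x y ≤ 9 / 10 * r} := by
    show H.d t x x ≤ _; rw [D.self t ht]; positivity
  obtain ⟨y, hy, hmax⟩ := hKc.exists_isMaxOn ⟨x, hx⟩ (A.s0_cont hFS).continuousOn
  have hy' : H.d t x y ≤ 9 / 10 * r := hy
  have hyr : H.d t x y < r := by linarith
  have hpx : p x = 1 := E.zeta_one (by
    have := (abs_le.1 (hv2 x)).2
    rw [D.self t ht] at this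
    rw [div_mul_eq_mul_div, div_le_one hr]; linarith)
  have hFx : F x ≤ F y := hmax hx
  have hpy : p y ≠ 0 := fun e => by
    have a1 := (abs_le.1 (h0 x (by rw [D.self t ht]; exact hr))).1
    have a2 := (abs_le.1 (h0 y hyr)).2
    simp only [hF, hpx, e] at hFx
    linarith
  have hy2 : H.d t x y < 9 / 10 * r := by
    have a1 : 4 / r * v y < 2 := lt_of_not_ge fun e => hpy (E.zeta_zero e)
    rw [div_mul_eq_mul_div, div_lt_iff₀ hr] at a1
    have := (abs_le.1 (hv2 y)).1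
    linarith
  have hloc : IsLocalMax F y := by
    filter_upwards [hdc.continuousAt.eventually (gt_mem_nhds hy2)] with z hz
    exact hmax (show H.d t x z ≤ _ from hz.le)
  have hg := (A.at_max t ht hFS hloc).2
  have e1 := A.gam_eq_zero ht hFS hu hg
  have e2 := A.gam_eq_zero ht hFS hpS hg
  rw [hF, A.gam_add t ht hu (A.s0_cmul _ hpS) hu, A.gam_cmul ht _ hpS hu] at e1
  rw [hF, A.gam_add t ht hu (A.s0_cmul _ hpS) hpS, A.gam_cmul ht _ hpS hpS,
    A.gam_symm t ht hu hpS] at e2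
  have e3 : H.gam t p p y ≤ (K * (4 / r)) ^ 2 := by
    rw [hp, A.gam_compU2 ht E.zeta_cd hv', A.gam_cmul ht _ hv hv', A.gam_cmul' ht _ hv hv, mul_pow]
    have b1 : deriv E.zeta (4 / r * v y) ^ 2 ≤ K ^ 2 := sq_le_sq' (abs_le.1 (hK1 _)).1 (abs_le.1 (hK1 _)).2
    have b2 : 4 / r * (4 / r * H.gam t v v y) ≤ (4 / r) ^ 2 := by
      have := hv1 y
      calc 4 / r * (4 / r * H.gam t v v y) ≤ 4 / r * (4 / r * 1) := by gcongr
        _ = _ := by ring
    have b3 : 0 ≤ 4 / r * (4 / r * H.gam t v v y) := by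
      have := A.gam_nonneg t ht hv y; positivity
    exact mul_le_mul b1 b2 b3 (sq_nonneg _)
  have e4 : H.gam t u u y = (3 * m) ^ 2 * H.gam t p p y := by
    have : H.gam t p u y = -(3 * m * H.gam t p p y) := by linarith
    rw [this] at e1; linarith
  have e5 : √(H.gam t u u y) ≤ 3 * m * (K * (4 / r)) := by
    rw [Real.sqrt_le_left (by positivity), e4, mul_pow (3 * m)]
    gcongr
  have e6 := grad_lip A Ev D ht hu hk h2 hyr
  have e7 : k * H.d t x y ≤ k * r := by gcongr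
  have e8 : 3 * m * (K * (4 / r)) ≤ (12 * K + 1) * m / r := by
    rw [le_div_iff₀ hr]
    have : 3 * m * (K * (4 / r)) * r = 12 * K * m := by field_simp; ring
    rw [this]; nlinarith
  linarith

end Crest.Agent.N207.Rad

end
end

-- ▼ part N207/Rad/Sz
section

/-!
# Row 207, block P0 (helper89): sizes of 2-jets at one point, normalised sums
-/

set_option autoImplicit false
set_option linter.dupNamespace false
set_option linter.unusedSectionVars false
open Set MeasureTheory Filter Topology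
open scoped ContDiff

noncomputable section

namespace Crest.Agent.N207.Rad

variable {M : Type*} [TopologicalSpace M] [CompactSpace M] [MeasurableSpace M] {H : HC M}

/-- value, gradient and Laplacian of `u` at `x` have size `c` at the scale `r` -/
structure Sz (H : HC M) (t : ℝ) (x : M) (r : ℝ) (u : M → ℝ) (c : ℝ) : Prop where
  s0 : H.S0 u
  v : |u x| ≤ c
  g : √(H.gam t u u x) ≤ c / r
  l : |H.lap t u x| ≤ c / r ^ 2

variable {t r : ℝ} {x : M} {u v : M → ℝ} {c d : ℝ}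

theorem Sz.nn (h : Sz H t x r u c) : 0 ≤ c := (abs_nonneg _).trans h.v

theorem Sz.mono (hr : 0 < r) (h : Sz H t x r u c) (hc : c ≤ d) : Sz H t x r u d :=
  ⟨h.s0, h.v.trans hc, h.g.trans (by gcongr), h.l.trans (by gcongr)⟩

theorem exists_sz (hr : 0 < r) (hu : H.S0 u) : ∃ c, Sz H t x r u c := by
  refine ⟨|u x| + √(H.gam t u u x) * r + |H.lap t u x| * r ^ 2, hu, ?_, ?_, ?_⟩
  · have : 0 ≤ √(H.gam t u u x) * r + |H.lap t u x| * r ^ 2 := by positivity
    linarith
  · rw [le_div_iff₀ hr]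
    have : 0 ≤ |u x| + |H.lap t u x| * r ^ 2 := by positivity
    linarith
  · rw [le_div_iff₀ (by positivity)]
    have : 0 ≤ |u x| + √(H.gam t u u x) * r := by positivity
    linarith

variable (A : H.Alg) (ht : t ∈ Ioo 0 H.T)
include A ht

theorem sqrt_gam_add (hu : H.S0 u) (hv : H.S0 v) :
    √(H.gam t (fun y => u y + v y) (fun y => u y + v y) x) ≤
      √(H.gam t u u x) + √(H.gam t v v x) := by
  rw [Real.sqrt_le_left (by positivity), A.gam_add t ht hu hv (A.s0_add hu hv),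
    A.gam_add' ht hu hv hu, A.gam_add' ht hu hv hv, A.gam_symm t ht hv hu]
  have h1 := (abs_le.1 (A.abs_gam_le ht hu hv x)).2
  nlinarith [Real.sq_sqrt (A.gam_nonneg t ht hu x), Real.sq_sqrt (A.gam_nonneg t ht hv x)]

theorem sqrt_gam_cmul (k : ℝ) (hu : H.S0 u) :
    √(H.gam t (fun y => k * u y) (fun y => k * u y) x) = |k| * √(H.gam t u u x) := by
  rw [A.gam_cmul ht _ hu (A.s0_cmul _ hu), A.gam_cmul' ht _ hu hu, ← mul_assoc, ← sq,
    Real.sqrt_mul (sq_nonneg k), Real.sqrt_sq_eq_abs]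

theorem sqrt_gam_mul (hu : H.S0 u) (hv : H.S0 v) :
    √(H.gam t (fun y => u y * v y) (fun y => u y * v y) x) ≤
      |u x| * √(H.gam t v v x) + |v x| * √(H.gam t u u x) := by
  have e : H.gam t (fun y => u y * v y) (fun y => u y * v y) x =
      H.gam t (fun y => u x * v y + v x * u y) (fun y => u x * v y + v x * u y) x := by
    have hv' := A.s0_cmul (u x) hv
    have hu' := A.s0_cmul (v x) hu
    rw [A.gam_mul t ht hu hv (A.s0_mul hu hv), A.gam_mul' ht hu hv hu, A.gam_mul' ht hu hv hv,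
      A.gam_add t ht hv' hu' (A.s0_add hv' hu'), A.gam_cmul ht _ hv (A.s0_add hv' hu'),
      A.gam_cmul ht _ hu (A.s0_add hv' hu'), A.gam_add' ht hv' hu' hv, A.gam_add' ht hv' hu' hu,
      A.gam_cmul' ht _ hv hv, A.gam_cmul' ht _ hu hv, A.gam_cmul' ht _ hv hu,
      A.gam_cmul' ht _ hu hu]
  rw [e, ← sqrt_gam_cmul A ht (u x) hv, ← sqrt_gam_cmul A ht (v x) hu]
  exact sqrt_gam_add A ht (A.s0_cmul _ hv) (A.s0_cmul _ hu)

theorem sz_const (hr : 0 < r) (k : ℝ) : Sz H t x r (fun _ => k) |k| :=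
  ⟨A.s0_const k, le_rfl, by rw [A.gam_const ht k (A.s0_const k), Real.sqrt_zero]; positivity,
    by rw [A.lap_const ht k, abs_zero]; positivity⟩

theorem sz_zero (hu : H.S0 u) (h : u =ᶠ[𝓝 x] fun _ => 0) : Sz H t x r u 0 := by
  obtain ⟨h1, h2⟩ := A.local_eq ht hu (A.s0_const 0) h
  refine ⟨hu, by rw [h.eq_of_nhds, abs_zero], ?_, ?_⟩
  · rw [h2 u hu, A.gam_const ht 0 hu, Real.sqrt_zero, zero_div]
  · rw [h1, A.lap_const ht 0, abs_zero, zero_div]

theorem Sz.add (h : Sz H t x r u c) (h' : Sz H t x r v d) :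
    Sz H t x r (fun y => u y + v y) (c + d) := by
  refine ⟨A.s0_add h.s0 h'.s0, (abs_add_le _ _).trans (add_le_add h.v h'.v), ?_, ?_⟩
  · rw [add_div]; exact (sqrt_gam_add A ht h.s0 h'.s0).trans (add_le_add h.g h'.g)
  · rw [add_div, A.lap_add t ht h.s0 h'.s0]
    exact (abs_add_le _ _).trans (add_le_add h.l h'.l)

theorem Sz.cmul (k : ℝ) (h : Sz H t x r u c) : Sz H t x r (fun y => k * u y) (|k| * c) := by
  refine ⟨A.s0_cmul k h.s0, ?_, ?_, ?_⟩
  · rw [abs_mul]; exact mul_le_mul_of_nonneg_left h.v (abs_nonneg k)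
  · rw [sqrt_gam_cmul A ht k h.s0, mul_div_assoc]
    exact mul_le_mul_of_nonneg_left h.g (abs_nonneg k)
  · rw [A.lap_cmul ht k h.s0, abs_mul, mul_div_assoc]
    exact mul_le_mul_of_nonneg_left h.l (abs_nonneg k)

theorem Sz.mul (hr : 0 < r) (h : Sz H t x r u c) (h' : Sz H t x r v d) :
    Sz H t x r (fun y => u y * v y) (4 * (c * d)) := by
  have hc := h.nn
  have hd := h'.nn
  have hcd := mul_nonneg hc hd
  refine ⟨A.s0_mul h.s0 h'.s0, ?_, ?_, ?_⟩
  · rw [abs_mul]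
    have := mul_le_mul h.v h'.v (abs_nonneg _) hc
    linarith
  · refine (sqrt_gam_mul A ht h.s0 h'.s0).trans ?_
    have a1 := mul_le_mul h.v h'.g (Real.sqrt_nonneg _) hc
    have a2 := mul_le_mul h'.v h.g (Real.sqrt_nonneg _) hd
    have a3 : c * (d / r) + d * (c / r) ≤ 4 * (c * d) / r := by
      rw [← mul_div_assoc, ← mul_div_assoc, ← add_div]; gcongr; linarith
    linarith
  · rw [A.lap_mul t ht h.s0 h'.s0]
    have a1 := mul_le_mul h.v h'.l (abs_nonneg _) hc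
    have a2 := mul_le_mul h'.v h.l (abs_nonneg _) hd
    have a3 := (A.abs_gam_le ht h.s0 h'.s0 x).trans
      (mul_le_mul h.g h'.g (Real.sqrt_nonneg _) (by positivity))
    have a4 : c * (d / r ^ 2) + d * (c / r ^ 2) + 2 * (c / r * (d / r)) = 4 * (c * d) / r ^ 2 := by
      field_simp; ring
    rw [← abs_mul] at a1 a2
    have a5 := abs_add_le (u x * H.lap t v x + v x * H.lap t u x) (2 * H.gam t u v x)
    have a6 := abs_add_le (u x * H.lap t v x) (v x * H.lap t u x)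
    rw [abs_mul 2, abs_two] at a5
    linarith

theorem Sz.comp (hr : 0 < r) {φ : ℝ → ℝ} {U : Set ℝ} (hU : IsOpen U) (hφ : ContDiffOn ℝ ∞ φ U)
    (hm : ∀ y, u y ∈ U) {K : ℝ} (h0 : |φ (u x)| ≤ K) (h1 : |deriv φ (u x)| ≤ K)
    (h2 : |deriv (deriv φ) (u x)| ≤ K) (h : Sz H t x r u c) :
    Sz H t x r (fun y => φ (u y)) (K * (1 + c + c ^ 2)) := by
  have hc := h.nn
  have hK : 0 ≤ K := (abs_nonneg _).trans h0
  refine ⟨A.s0_comp hU hφ hm h.s0, h0.trans (by nlinarith [mul_nonneg hK hc, sq_nonneg c]), ?_, ?_⟩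
  · rw [A.gam_comp2 ht hU hφ hm h.s0, Real.sqrt_mul (sq_nonneg _), Real.sqrt_sq_eq_abs]
    refine (mul_le_mul h1 h.g (Real.sqrt_nonneg _) hK).trans ?_
    rw [← mul_div_assoc]; gcongr; nlinarith [sq_nonneg c]
  · rw [A.lap_comp t ht hU hφ hm h.s0]
    have a0 := A.gam_nonneg t ht h.s0 x
    have a1 := mul_le_mul h1 h.l (abs_nonneg _) hK
    have a2 : H.gam t u u x ≤ c ^ 2 / r ^ 2 := by
      rw [← div_pow, ← Real.sqrt_le_left (by positivity)]; exact h.g
    have a3 := mul_le_mul h2 a2 a0 hK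
    have a4 : K * (c / r ^ 2) + K * (c ^ 2 / r ^ 2) ≤ K * (1 + c + c ^ 2) / r ^ 2 := by
      rw [← mul_div_assoc, ← mul_div_assoc, ← add_div]; gcongr; nlinarith
    have a5 := abs_add_le (deriv φ (u x) * H.lap t u x) (deriv (deriv φ) (u x) * H.gam t u u x)
    rw [abs_mul, abs_mul, abs_of_nonneg a0] at a5
    linarith

theorem Sz.inv (hr : 0 < r) (hp : ∀ y, 0 < u y) (h1 : 1 ≤ u x) (h : Sz H t x r u c) :
    Sz H t x r (fun y => (u y)⁻¹) (2 * (1 + c + c ^ 2)) := by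
  have hc : ContDiffOn ℝ ∞ (fun s : ℝ => s⁻¹) (Ioi 0) :=
    fun s hs => (contDiffAt_inv ℝ (ne_of_gt hs)).contDiffWithinAt
  have hx := hp x
  have hi : (u x)⁻¹ ≤ 1 := inv_le_one_of_one_le₀ h1
  have hi0 : 0 < (u x)⁻¹ := inv_pos.2 hx
  refine Sz.comp A ht hr isOpen_Ioi hc hp ?_ ?_ ?_ h
  · rw [abs_of_pos hi0]; linarith
  · rw [deriv_inv, abs_neg, ← inv_pow, abs_of_pos (by positivity)]; nlinarith
  · have e : deriv (fun s : ℝ => s⁻¹) = fun s => -(s ^ 2)⁻¹ := deriv_inv'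
    have d : HasDerivAt (fun s : ℝ => -(s ^ 2)⁻¹) (2 * (u x)⁻¹ ^ 3) (u x) := by
      have d0 := ((hasDerivAt_pow 2 (u x)).inv (by positivity)).neg
      refine d0.congr_deriv ?_
      have := hx.ne'
      simp only [Nat.cast_ofNat, Nat.add_one_sub_one, pow_one]
      field_simp
    rw [e, d.deriv, abs_of_pos (by positivity)]
    have : (u x)⁻¹ ^ 3 ≤ 1 := pow_le_one₀ hi0.le hi
    linarith

theorem sz_sum {ι : Type*} (hr : 0 < r) (s : Finset ι) {f : ι → M → ℝ} {k : ι → ℝ}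
    (h : ∀ i ∈ s, Sz H t x r (f i) (k i)) :
    Sz H t x r (fun y => ∑ i ∈ s, f i y) (∑ i ∈ s, k i) := by
  classical
  induction s using Finset.induction_on with
  | empty => simpa using sz_const A ht hr 0
  | insert i s hi ih =>
    simp only [Finset.sum_insert hi]
    exact (h i (Finset.mem_insert_self _ _)).add A ht
      (ih fun j hj => h j (Finset.mem_insert_of_mem hj))

/-- the normalised sum is close to the reference function -/
theorem sz_glue {ι : Type*} (hr : 0 < r) (s : Finset ι) (al : ι → Prop) [DecidablePred al]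
    {p β : ι → M → ℝ} {β0 : M → ℝ} {N L e : ℝ} (hN : ((s.filter al).card : ℝ) ≤ N) (hL : 0 ≤ L)
    (he : 0 ≤ e) (hβ : ∀ i ∈ s, H.S0 (β i)) (hβ0 : H.S0 β0)
    (hd : ∀ i ∈ s, ¬ al i → Sz H t x r (p i) 0) (ha : ∀ i ∈ s, al i → Sz H t x r (p i) L)
    (hb : ∀ i ∈ s, al i → Sz H t x r (fun y => β i y - β0 y) e)
    (hW : ∀ y, 0 < ∑ i ∈ s, p i y) (hW1 : 1 ≤ ∑ i ∈ s, p i x) :
    Sz H t x r (fun y => (∑ i ∈ s, p i y * β i y) / (∑ i ∈ s, p i y) - β0 y)
      (32 * (N * L * (1 + N * L + (N * L) ^ 2)) * e) := by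
  have hs : ∀ k : ℝ, 0 ≤ k → ∑ i ∈ s, (if al i then k else 0) ≤ N * k := fun k hk => by
    rw [← Finset.sum_filter, Finset.sum_const, nsmul_eq_mul]
    exact mul_le_mul_of_nonneg_right hN hk
  have h1 : Sz H t x r (fun y => ∑ i ∈ s, p i y) (N * L) :=
    (sz_sum A ht hr s (k := fun i => if al i then L else 0) fun i hi => by
      by_cases h : al i
      · simpa [h] using ha i hi h
      · simpa [h] using hd i hi h).mono hr (hs L hL)
  have h2 : Sz H t x r (fun y => ∑ i ∈ s, p i y * (β i y - β0 y)) (N * (4 * (L * e))) :=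
    (sz_sum A ht hr s (k := fun i => if al i then 4 * (L * e) else 0) fun i hi => by
      by_cases h : al i
      · simpa [h] using (ha i hi h).mul A ht hr (hb i hi h)
      · obtain ⟨c, hc⟩ := exists_sz (t := t) (x := x) hr (A.s0_sub (hβ i hi) hβ0)
        simpa [h] using (hd i hi h).mul A ht hr hc).mono hr (hs _ (by positivity))
  have h3 := h2.mul A ht hr (h1.inv A ht hr hW hW1)
  have e1 : (fun y => (∑ i ∈ s, p i y * β i y) / (∑ i ∈ s, p i y) - β0 y) =
      fun y => (∑ i ∈ s, p i y * (β i y - β0 y)) * (∑ i ∈ s, p i y)⁻¹ := by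
    funext y
    have := (hW y).ne'
    simp only [mul_sub, Finset.sum_sub_distrib, ← Finset.sum_mul]
    field_simp
  rw [e1]
  exact h3.mono hr (le_of_eq (by ring))

end Crest.Agent.N207.Rad

end
end

-- ▼ part N207/Rad/Loc

/-!
# Row 207, block P0 (helper89): local radial functions, their weights and differences
-/

set_option autoImplicit false
set_option linter.dupNamespace false
set_option linter.unusedSectionVars false
open Set MeasureTheory Filter Topology
open scoped ContDiff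

noncomputable section

namespace Crest.Agent.N207.Rad

variable {M : Type*} [TopologicalSpace M] [CompactSpace M] [MeasurableSpace M] {H : HC M}

/-- `β` is a radial function at the scale `r` around `z`, at the time `t` -/
structure LocAt (H : HC M) (t : ℝ) (z : M) (η r : ℝ) (β : M → ℝ) : Prop where
  s0 : H.S0 β
  inn : ∀ x, H.d t z x ≤ r / 4 → β x ≤ r ^ 2 / 8
  out : ∀ x, 4 * r ≤ H.d t z x → 8 * r ^ 2 ≤ β x
  mid : ∀ x, r / 4 ≤ H.d t z x → H.d t z x ≤ 4 * r → |β x - H.d t z x ^ 2| ≤ η * r ^ 2 ∧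
    |H.gam t β β x - 4 * β x| ≤ η * r ^ 2 ∧ |H.lap t β x - 8| ≤ η ∧ |H.hh t β x - 16| ≤ η

/-- `|Hess u - Hess v|² ≤ 2 |Hess u - 2 g|² + 2 |Hess v - 2 g|²` -/
def HhSub (H : HC M) : Prop :=
  ∀ t ∈ Ioo 0 H.T, ∀ u v : M → ℝ, H.S0 u → H.S0 v → ∀ x, H.hh t (fun y => u y - v y) x ≤
    2 * (H.hh t u x - 4 * H.lap t u x + 16) + 2 * (H.hh t v x - 4 * H.lap t v x + 16)

/-- the upper cut -/
def cU (top : Prop) [Decidable top] (s : ℝ) : ℝ := if top then 1 else E.zeta (s / 2)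

/-- the lower cut -/
def cL (bot : Prop) [Decidable bot] (s : ℝ) : ℝ := if bot then 1 else 1 - E.zeta (5 * s)

/-- the weight profile -/
def cW (top bot : Prop) [Decidable top] [Decidable bot] (s : ℝ) : ℝ := cU top s * cL bot s

section prof
variable (top bot : Prop) [Decidable top] [Decidable bot]

theorem cU_cd : ContDiff ℝ ∞ (cU top) := by
  unfold cU; split_ifs
  · exact contDiff_const
  · exact E.zeta_cd.comp (by fun_prop)

theorem cL_cd : ContDiff ℝ ∞ (cL bot) := by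
  unfold cL; split_ifs
  · exact contDiff_const
  · exact contDiff_const.sub (E.zeta_cd.comp (by fun_prop))

theorem cW_cd : ContDiff ℝ ∞ (cW top bot) := (cU_cd top).mul (cL_cd bot)

theorem cU_mem (s : ℝ) : cU top s ∈ Icc (0 : ℝ) 1 := by
  unfold cU; split_ifs
  · simp
  · exact ⟨E.zeta_nonneg _, E.zeta_le_one _⟩

theorem cL_mem (s : ℝ) : cL bot s ∈ Icc (0 : ℝ) 1 := by
  unfold cL; split_ifs
  · simp
  · exact ⟨by linarith [E.zeta_le_one (5 * s)], by linarith [E.zeta_nonneg (5 * s)]⟩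

theorem cW_nonneg (s : ℝ) : 0 ≤ cW top bot s := mul_nonneg (cU_mem top s).1 (cL_mem bot s).1

theorem cW_le (s : ℝ) : cW top bot s ≤ 1 :=
  mul_le_one₀ (cU_mem top s).2 (cL_mem bot s).1 (cL_mem bot s).2

variable {top bot}

theorem cW_top {s : ℝ} (h : ¬ top) (hs : 4 ≤ s) : cW top bot s = 0 := by
  simp [cW, cU, h, E.zeta_zero (show 2 ≤ s / 2 by linarith)]

theorem cW_bot {s : ℝ} (h : ¬ bot) (hs : s ≤ 1 / 5) : cW top bot s = 0 := by
  simp [cW, cL, h, E.zeta_one (show 5 * s ≤ 1 by linarith)]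

theorem cW_one {s : ℝ} (h1 : top ∨ s ≤ 2) (h2 : bot ∨ 2 / 5 ≤ s) : cW top bot s = 1 := by
  have a : cU top s = 1 := by
    unfold cU; split_ifs with h
    · rfl
    · exact E.zeta_one (by have := h1.resolve_left h; linarith)
  have b : cL bot s = 1 := by
    unfold cL; split_ifs with h
    · rfl
    · rw [E.zeta_zero (by have := h2.resolve_left h; linarith)]; ring
  rw [cW, a, b, one_mul]

end prof

theorem bdd2 {f : ℝ → ℝ} (hf : ContDiff ℝ ∞ f) : ∃ K : ℝ, 1 ≤ K ∧ ∀ s ∈ Icc (-20 : ℝ) 20,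
    |deriv f s| ≤ K ∧ |deriv (deriv f) s| ≤ K := by
  have h1 : ContDiff ℝ ∞ (deriv f) := hf.deriv'
  have h2 : ContDiff ℝ ∞ (deriv (deriv f)) := h1.deriv'
  obtain ⟨K1, hK1⟩ := isCompact_Icc.exists_bound_of_continuousOn
    (h1.continuous.continuousOn (s := Icc (-20 : ℝ) 20))
  obtain ⟨K2, hK2⟩ := isCompact_Icc.exists_bound_of_continuousOn
    (h2.continuous.continuousOn (s := Icc (-20 : ℝ) 20))
  refine ⟨max 1 (max K1 K2), le_max_left _ _, fun s hs => ⟨?_, ?_⟩⟩
  · exact (hK1 s hs).trans ((le_max_left _ _).trans (le_max_right _ _))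
  · exact (hK2 s hs).trans ((le_max_right _ _).trans (le_max_right _ _))

theorem cW_bdd : ∃ K : ℝ, 1 ≤ K ∧ ∀ (top bot : Prop) [Decidable top] [Decidable bot],
    ∀ s ∈ Icc (-20 : ℝ) 20, |deriv (cW top bot) s| ≤ K ∧ |deriv (deriv (cW top bot)) s| ≤ K := by
  obtain ⟨K1, a1, h1⟩ := bdd2 (cW_cd True True)
  obtain ⟨K2, -, h2⟩ := bdd2 (cW_cd True False)
  obtain ⟨K3, -, h3⟩ := bdd2 (cW_cd False True)
  obtain ⟨K4, -, h4⟩ := bdd2 (cW_cd False False)
  refine ⟨max (max K1 K2) (max K3 K4), a1.trans ((le_max_left _ _).trans (le_max_left _ _)), ?_⟩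
  intro top bot _ _ s hs
  by_cases ht : top <;> by_cases hb : bot
  · have e : cW top bot = cW True True := by funext y; simp [cW, cU, cL, ht, hb]
    have l : K1 ≤ max (max K1 K2) (max K3 K4) := (le_max_left _ _).trans (le_max_left _ _)
    rw [e]; exact ⟨(h1 s hs).1.trans l, (h1 s hs).2.trans l⟩
  · have e : cW top bot = cW True False := by funext y; simp [cW, cU, cL, ht, hb]
    have l : K2 ≤ max (max K1 K2) (max K3 K4) := (le_max_right _ _).trans (le_max_left _ _)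
    rw [e]; exact ⟨(h2 s hs).1.trans l, (h2 s hs).2.trans l⟩
  · have e : cW top bot = cW False True := by funext y; simp [cW, cU, cL, ht, hb]
    have l : K3 ≤ max (max K1 K2) (max K3 K4) := (le_max_left _ _).trans (le_max_right _ _)
    rw [e]; exact ⟨(h3 s hs).1.trans l, (h3 s hs).2.trans l⟩
  · have e : cW top bot = cW False False := by funext y; simp [cW, cU, cL, ht, hb]
    have l : K4 ≤ max (max K1 K2) (max K3 K4) := (le_max_right _ _).trans (le_max_right _ _)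
    rw [e]; exact ⟨(h4 s hs).1.trans l, (h4 s hs).2.trans l⟩

variable {t η r r' : ℝ} {z x : M} {β β' : M → ℝ}

theorem LocAt.small (h : LocAt H t z η r β) (hη : η ≤ 1 / 100) (hr : 0 < r)
    (hx : H.d t z x ≤ 3 / 10 * r) : β x / r ^ 2 ≤ 1 / 5 := by
  rw [div_le_iff₀ (by positivity)]
  rcases le_total (H.d t z x) (r / 4) with h1 | h1
  · have := h.inn x h1; nlinarith
  · have := (abs_le.1 (h.mid x h1 (by linarith)).1).2
    nlinarith

theorem LocAt.big (h : LocAt H t z η r β) (hη : η ≤ 1 / 100) (hr : 0 < r)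
    (hx : 3 * r ≤ H.d t z x) : 4 ≤ β x / r ^ 2 := by
  rw [le_div_iff₀ (by positivity)]
  rcases le_total (4 * r) (H.d t z x) with h1 | h1
  · have := h.out x h1; nlinarith
  · have := (abs_le.1 (h.mid x (by linarith) h1).1).1
    nlinarith

theorem LocAt.le_two (h : LocAt H t z η r β) (hη : η ≤ 1 / 100) (hr : 0 < r)
    (hx : H.d t z x ≤ 13 / 10 * r) : β x / r ^ 2 ≤ 2 := by
  rw [div_le_iff₀ (by positivity)]
  rcases le_total (H.d t z x) (r / 4) with h1 | h1
  · have := h.inn x h1; nlinarith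
  · have := (abs_le.1 (h.mid x h1 (by linarith)).1).2
    nlinarith

theorem LocAt.ge_two (h : LocAt H t z η r β) (hη : η ≤ 1 / 100) (hr : 0 < r)
    (hx : 13 / 20 * r ≤ H.d t z x) : 2 / 5 ≤ β x / r ^ 2 := by
  rw [le_div_iff₀ (by positivity)]
  rcases le_total (4 * r) (H.d t z x) with h1 | h1
  · have := h.out x h1; nlinarith
  · have := (abs_le.1 (h.mid x (by linarith) h1).1).1
    nlinarith

/-- the size of `β / r²` at the scale `ρ = d(z,x)` -/
theorem LocAt.sz (A : H.Alg) (ht : t ∈ Ioo 0 H.T) (h : LocAt H t z η r β) (hη : η ≤ 1 / 100)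
    (hr : 0 < r) (h1 : 3 / 10 * r ≤ H.d t z x) (h2 : H.d t z x ≤ 3 * r) :
    Sz H t x (H.d t z x) β (100 * r ^ 2) := by
  obtain ⟨a1, a2, a3, -⟩ := h.mid x (by linarith) (by linarith)
  set ρ := H.d t z x
  have hρ : 0 < ρ := by linarith
  obtain ⟨b1, b2⟩ := abs_le.1 a1
  have hr2 : 0 < r ^ 2 := by positivity
  have c1 : ρ ^ 2 ≤ 9 * r ^ 2 := by nlinarith
  have c2 : η * r ^ 2 ≤ r ^ 2 := by nlinarith
  refine ⟨h.s0, abs_le.2 ⟨by nlinarith [sq_nonneg ρ], by nlinarith⟩, ?_, ?_⟩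
  · have c3 : √(H.gam t β β x) ≤ 7 * r := by
      rw [Real.sqrt_le_left (by positivity)]
      have := (abs_le.1 a2).2
      nlinarith
    rw [le_div_iff₀ hρ]
    calc √(H.gam t β β x) * ρ ≤ 7 * r * (3 * r) := by gcongr
      _ ≤ 100 * r ^ 2 := by nlinarith
  · rw [le_div_iff₀ (by positivity)]
    have c4 : |H.lap t β x| ≤ 9 := by
      obtain ⟨d1, d2⟩ := abs_le.1 a3
      exact abs_le.2 ⟨by linarith, by linarith⟩
    calc |H.lap t β x| * ρ ^ 2 ≤ 9 * (9 * r ^ 2) := by gcongr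
      _ ≤ 100 * r ^ 2 := by nlinarith

/-- the size of an alive weight -/
theorem sz_weight : ∃ L : ℝ, 1 ≤ L ∧ ∀ {M : Type*} [TopologicalSpace M] [CompactSpace M]
    [MeasurableSpace M] {H : HC M}, H.Alg → ∀ {t η r : ℝ} {z x : M} {β : M → ℝ}, t ∈ Ioo 0 H.T →
    LocAt H t z η r β → η ≤ 1 / 100 → 0 < r → 3 / 10 * r ≤ H.d t z x → H.d t z x ≤ 3 * r →
    ∀ (top bot : Prop) [Decidable top] [Decidable bot],
    Sz H t x (H.d t z x) (fun y => cW top bot (β y / r ^ 2)) L := by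
  obtain ⟨K, hK, hb⟩ := cW_bdd
  refine ⟨K * (1 + 100 + 100 ^ 2), by nlinarith, ?_⟩
  intro M _ _ _ H A t η r z x β ht h hη hr h1 h2 top bot _ _
  have hρ : 0 < H.d t z x := by linarith
  have hr2 : 0 < r ^ 2 := by positivity
  have s1 := (h.sz A ht hη hr h1 h2).cmul A ht (r ^ 2)⁻¹
  have e : |(r ^ 2)⁻¹| * (100 * r ^ 2) = 100 := by
    rw [abs_of_pos (inv_pos.2 hr2)]; field_simp
  rw [e] at s1
  have hm : (r ^ 2)⁻¹ * β x ∈ Icc (-20 : ℝ) 20 := by
    obtain ⟨b1, b2⟩ := abs_le.1 (h.mid x (by linarith) (by linarith)).1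
    rw [inv_mul_eq_div, mem_Icc, le_div_iff₀ hr2, div_le_iff₀ hr2]
    constructor <;> nlinarith [sq_nonneg (H.d t z x)]
  have s2 := Sz.comp A ht hρ isOpen_univ (cW_cd top bot).contDiffOn (fun y => mem_univ _)
    (K := K) (by rw [abs_of_nonneg (cW_nonneg _ _ _)]; exact (cW_le _ _ _).trans hK)
    (hb top bot _ hm).1 (hb top bot _ hm).2 s1
  simpa only [inv_mul_eq_div] using s2

/-- two radial functions are close in `C²` -/
theorem sz_diff : ∃ C : ℝ, 1 ≤ C ∧ ∀ {M : Type*} [TopologicalSpace M] [CompactSpace M]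
    [MeasurableSpace M] {H : HC M}, H.Alg → H.Evo → H.Dist → HhSub H →
    ∀ {t e r r' : ℝ} {z x : M} {β β' : M → ℝ}, t ∈ Ioo 0 H.T →
    LocAt H t z (e ^ 2) r β → LocAt H t z (e ^ 2) r' β' → 0 < e → e ≤ 1 / 10 → 0 < r → 0 < r' →
    3 / 10 * r ≤ H.d t z x → H.d t z x ≤ 3 * r → 3 / 10 * r' ≤ H.d t z x → H.d t z x ≤ 3 * r' →
    Sz H t x (H.d t z x) (fun y => β y - β' y) (C * e * H.d t z x ^ 2) := by
  obtain ⟨C, hC, hg⟩ := grad_small.{_}
  refine ⟨30 * C + 3, by linarith, ?_⟩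
  intro M _ _ _ H A Ev D hs t e r r' z x β β' ht h h' he he1 hr hr' h1 h2 h1' h2'
  set ρ := H.d t z x with hρd
  have hρ : 0 < ρ := by linarith
  have hball : ∀ y, H.d t x y < ρ / 10 → 9 / 10 * ρ ≤ H.d t z y ∧ H.d t z y ≤ 11 / 10 * ρ := by
    intro y hy
    have a := D.tri t ht z x y
    have b := D.tri t ht z y x
    rw [D.symm t ht y x] at b
    constructor <;> linarith
  have e2 : e ^ 2 ≤ e / 10 := by nlinarith
  have hrr : r ^ 2 ≤ 12 * ρ ^ 2 := by nlinarith
  have hrr' : r' ^ 2 ≤ 12 * ρ ^ 2 := by nlinarith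
  have hv : ∀ y, H.d t x y < ρ / 10 → |β y - β' y| ≤ 3 * e * ρ ^ 2 := by
    intro y hy
    obtain ⟨a, b⟩ := hball y hy
    obtain ⟨c1, c2⟩ := abs_le.1 (h.mid y (by linarith) (by linarith)).1
    obtain ⟨d1, d2⟩ := abs_le.1 (h'.mid y (by linarith) (by linarith)).1
    have f1 : e ^ 2 * r ^ 2 ≤ e / 10 * (12 * ρ ^ 2) := by gcongr
    have f2 : e ^ 2 * r' ^ 2 ≤ e / 10 * (12 * ρ ^ 2) := by gcongr
    have f3 : 0 ≤ e * ρ ^ 2 := by positivity
    exact abs_le.2 ⟨by linarith, by linarith⟩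
  have hh : ∀ y, H.d t x y < ρ / 10 → H.hh t (fun y => β y - β' y) y ≤ (5 * e) ^ 2 := by
    intro y hy
    obtain ⟨a, b⟩ := hball y hy
    obtain ⟨-, -, c1, c2⟩ := h.mid y (by linarith) (by linarith)
    obtain ⟨-, -, d1, d2⟩ := h'.mid y (by linarith) (by linarith)
    have := hs t ht β β' h.s0 h'.s0 y
    have := (abs_le.1 c1).1
    have := (abs_le.1 c2).2
    have := (abs_le.1 d1).1
    have := (abs_le.1 d2).2
    nlinarith [sq_nonneg e]
  have hx : H.d t x x < ρ / 10 := by rw [D.self t ht]; positivity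
  have f3 : 0 ≤ e * ρ ^ 2 := by positivity
  refine ⟨A.s0_sub h.s0 h'.s0, (hv x hx).trans (by nlinarith), ?_, ?_⟩
  · refine (hg A Ev D ht (A.s0_sub h.s0 h'.s0) (by positivity) (by positivity) (by positivity)
      hv hh).trans ?_
    have : C * (3 * e * ρ ^ 2) / (ρ / 10) + 5 * e * (ρ / 10) = (30 * C + 1 / 2) * e * ρ ^ 2 / ρ := by
      field_simp; ring
    rw [this]; gcongr; norm_num
  · rw [A.lap_sub ht h.s0 h'.s0, mul_div_assoc, div_self (by positivity), mul_one]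
    obtain ⟨-, -, c1, -⟩ := h.mid x (by linarith) (by linarith)
    obtain ⟨-, -, d1, -⟩ := h'.mid x (by linarith) (by linarith)
    obtain ⟨c2, c3⟩ := abs_le.1 c1
    obtain ⟨d2, d3⟩ := abs_le.1 d1
    have : 0 ≤ C * e := by positivity
    exact abs_le.2 ⟨by nlinarith, by nlinarith⟩

end Crest.Agent.N207.Rad

end
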