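import Crest.Agent.N207.Rad.Crd2
import Crest.Agent.N207.G.Tr

-- ▼ part N207/Rad/Neck
section

/-!
# Row 207, block P0 (helper89): radial functions of a neck chart
-/

set_option autoImplicit false
set_option linter.unusedSectionVars false

open scoped ContDiff Topology Manifold Classical
open Set Filter
open Crest.GeometryTopology.CoordMetric Crest.GeometryTopology.ChartCurvature
  Crest.GeometryTopology.MetricFamily

noncomputable section

namespace Crest.Agent.N207.Rad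

open Sk

variable {M : Type*} [TopologicalSpace M] [ChartedSpace E4 M] [IsManifold 𝓘(ℝ, E4) ∞ M]

/-- a function whose pull-back is smooth is smooth -/
theorem contMDiffAt_of_par {Ψ : E4 → M} {U : Set E4} (hP : Par Ψ U) {x : E4} (hx : x ∈ U)
    {f : M → ℝ} (hf : ContDiffOn ℝ ∞ (fun y => f (Ψ y)) U) :
    ContMDiffAt 𝓘(ℝ, E4) 𝓘(ℝ, ℝ) ∞ f (Ψ x) := by
  obtain ⟨T, V, hV, hyV, -, -, hT, hm⟩ := Gs.exists_trans0 (Par.chart (n := 4) (Ψ x)) hP
    (ctr_mem (Ψ x)) hx (symm_ctr (Ψ x)).symm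
  refine contMDiffAt_of_inCh (x := Ψ x) (mem_chart_source E4 _) ?_
  have h1 : ContDiffOn ℝ ∞ (fun z => f (Ψ (T z))) V := hf.comp hT fun z hz => (hm z hz).1
  refine (h1.contDiffAt (hV.mem_nhds hyV)).congr_of_eventuallyEq ?_
  filter_upwards [hV.mem_nhds hyV] with z hz
  rw [(hm z hz).2]; rfl

/-- the function `θ (|x|²)` on the neck, constant inside and outside -/
def radF (N : Nk M) (θ : ℝ → ℝ) (c1 c2 : ℝ) (p : M) : ℝ :=
  if h : ∃ x ∈ shell N.a N.b, N.Ψ x = p then θ (‖h.choose‖ ^ 2) else if p ∈ N.In then c1 else c2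

variable {N : Nk M} {θ : ℝ → ℝ} {c1 c2 : ℝ}

theorem radF_chart (hN : N.Top) {x : E4} (hx : x ∈ shell N.a N.b) :
    radF N θ c1 c2 (N.Ψ x) = θ (‖x‖ ^ 2) := by
  have h : ∃ y ∈ shell N.a N.b, N.Ψ y = N.Ψ x := ⟨x, hx, rfl⟩
  obtain ⟨γ, -, e⟩ := (hN.fib _ h.choose_spec.1 _ hx).1 h.choose_spec.2
  have e2 : ‖h.choose‖ = ‖x‖ := (γ.norm_map _).symm.trans (congrArg norm e)
  rw [radF, dif_pos h, e2]

theorem radF_in (hN : N.Top) {p : M} (hp : p ∈ N.In) : radF N θ c1 c2 p = c1 := by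
  rw [radF, dif_neg, if_pos hp]
  rintro ⟨x, hx, rfl⟩
  exact hN.disj x hx hp

theorem radF_out {p : M} (hp : p ∉ N.Om N.b) : radF N θ c1 c2 p = c2 := by
  rw [radF, dif_neg, if_neg fun h => hp (Or.inl h)]
  rintro ⟨x, hx, rfl⟩
  exact hp (Or.inr ⟨x, hx, rfl⟩)

theorem cases_nk (N : Nk M) (p : M) :
    p ∈ N.In ∨ (∃ x ∈ shell N.a N.b, N.Ψ x = p) ∨ p ∉ N.Om N.b := by
  by_cases h : p ∈ N.Om N.b
  · rcases h with h | h
    · exact Or.inl h
    · exact Or.inr (Or.inl h)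
  · exact Or.inr (Or.inr h)

theorem radF_sm (hN : N.Top) (hθ : ContDiff ℝ ∞ θ) {a1 b1 : ℝ} (ha : N.a < a1) (hab : a1 ≤ b1)
    (hb : b1 < N.b) (h1 : ∀ s ≤ a1 ^ 2, θ s = c1) (h2 : ∀ s, b1 ^ 2 ≤ s → θ s = c2) :
    Sm 4 (radF N θ c1 c2) := by
  intro p
  have ha0 := hN.a_pos
  rcases cases_nk N p with hp | ⟨x, hx, rfl⟩ | hp
  · refine (contMDiffAt_const (c := c1)).congr_of_eventuallyEq ?_
    filter_upwards [(hN.opn a1 ⟨ha, by linarith⟩).mem_nhds (Or.inl hp)] with q hq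
    rcases hq with hq | ⟨y, hy, rfl⟩
    · exact radF_in hN hq
    · rw [radF_chart hN ⟨hy.1, by linarith [hy.2]⟩]
      exact h1 _ (pow_le_pow_left₀ (norm_nonneg _) hy.2.le 2)
  · refine contMDiffAt_of_par hN.par hx ?_
    exact (hθ.comp nq_cd).contDiffOn.congr fun y hy => radF_chart hN hy
  · refine (contMDiffAt_const (c := c2)).congr_of_eventuallyEq ?_
    have hc := (hN.cls b1 ⟨by linarith, hb⟩).isOpen_compl
    have hm : p ∈ (N.In ∪ N.Ψ '' {x | N.a < ‖x‖ ∧ ‖x‖ ≤ b1})ᶜ := by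
      rintro (h | ⟨y, hy, rfl⟩)
      · exact hp (Or.inl h)
      · exact hp (Or.inr ⟨y, ⟨hy.1, by linarith [hy.2]⟩, rfl⟩)
    filter_upwards [hc.mem_nhds hm] with q hq
    rcases cases_nk N q with h | ⟨y, hy, rfl⟩ | h
    · exact (hq (Or.inl h)).elim
    · rw [radF_chart hN hy]
      have : b1 < ‖y‖ := lt_of_not_ge fun e => hq (Or.inr ⟨y, ⟨hy.1, e⟩, rfl⟩)
      exact h2 _ (pow_le_pow_left₀ (by linarith) this.le 2)
    · exact radF_out h

/-- the profile: `1/20` below `1/40`, the identity on `[1/20, 20]`, `20` above `40` -/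
def prof (s : ℝ) : ℝ := E.zeta (40 * s) * (1 / 20) +
  (1 - E.zeta (40 * s)) * (E.zeta (s / 20) * s + (1 - E.zeta (s / 20)) * 20)

theorem prof_cd : ContDiff ℝ ∞ prof := by
  have h1 : ContDiff ℝ ∞ fun s : ℝ => E.zeta (40 * s) := E.zeta_cd.comp (by fun_prop)
  have h2 : ContDiff ℝ ∞ fun s : ℝ => E.zeta (s / 20) := E.zeta_cd.comp (by fun_prop)
  exact (h1.mul contDiff_const).add ((contDiff_const.sub h1).mul
    ((h2.mul contDiff_id).add ((contDiff_const.sub h2).mul contDiff_const)))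

theorem prof_lo {s : ℝ} (h : s ≤ 1 / 40) : prof s = 1 / 20 := by
  rw [prof, E.zeta_one (by linarith)]; ring

theorem prof_hi {s : ℝ} (h : 40 ≤ s) : prof s = 20 := by
  rw [prof, E.zeta_zero (by linarith), E.zeta_zero (by linarith)]; ring

theorem prof_id {s : ℝ} (h : 1 / 20 ≤ s) (h' : s ≤ 20) : prof s = s := by
  rw [prof, E.zeta_zero (by linarith), E.zeta_one (by linarith)]; ring

theorem prof_le {s : ℝ} (h : s ≤ 1 / 8) : prof s ≤ 1 / 8 := by
  rw [prof, E.zeta_one (show s / 20 ≤ 1 by linarith)]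
  nlinarith [E.zeta_nonneg (40 * s), E.zeta_le_one (40 * s)]

theorem prof_ge {s : ℝ} (h : 8 ≤ s) : 8 ≤ prof s := by
  rw [prof, E.zeta_zero (show 2 ≤ 40 * s by linarith)]
  nlinarith [E.zeta_nonneg (s / 20), E.zeta_le_one (s / 20)]

theorem prof_pos (s : ℝ) : 0 < prof s := by
  rcases le_total s (1 / 40) with h | h
  · rw [prof_lo h]; norm_num
  · have a1 := E.zeta_nonneg (40 * s)
    have a2 := E.zeta_le_one (40 * s)
    have a3 : 1 / 40 ≤ E.zeta (s / 20) * s + (1 - E.zeta (s / 20)) * 20 := by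
      nlinarith [E.zeta_nonneg (s / 20), E.zeta_le_one (s / 20)]
    rw [prof]; nlinarith

/-- the radial function at the scale `r` -/
def radB (N : Nk M) (r : ℝ) : M → ℝ :=
  radF N (fun s => r ^ 2 * prof (s / r ^ 2)) (r ^ 2 / 20) (20 * r ^ 2)

variable {r : ℝ}

theorem radB_sm (hN : N.Top) (hr : 0 < r) (ha : N.a < r / 7) (hb : 7 * r < N.b) :
    Sm 4 (radB N r) := by
  have h2 : 0 < r ^ 2 := by positivity
  refine radF_sm hN (contDiff_const.mul (prof_cd.comp (by fun_prop))) ha (by linarith) hb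
    (fun s hs => ?_) fun s hs => ?_
  · rw [prof_lo (by rw [div_le_iff₀ h2]; nlinarith)]; ring
  · rw [prof_hi (by rw [le_div_iff₀ h2]; nlinarith)]; ring

theorem radB_pos (hN : N.Top) (hr : 0 < r) (p : M) : 0 < radB N r p := by
  rcases cases_nk N p with hp | ⟨x, hx, rfl⟩ | hp
  · rw [radB, radF_in hN hp]; positivity
  · rw [radB, radF_chart hN hx]; exact mul_pos (by positivity) (prof_pos _)
  · rw [radB, radF_out hp]; positivity

theorem radB_ev (hN : N.Top) (hr : 0 < r) {x : E4} (hx : x ∈ shell N.a N.b)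
    (h1 : r ^ 2 / 20 < ‖x‖ ^ 2) (h2 : ‖x‖ ^ 2 < 20 * r ^ 2) :
    (fun y => radB N r (N.Ψ y)) =ᶠ[𝓝 x] nq := by
  have hr2 : 0 < r ^ 2 := by positivity
  filter_upwards [hN.par.isOpen.mem_nhds hx,
    nq_cd.continuous.continuousAt.eventually (Ioo_mem_nhds h1 h2)] with y hy hy2
  rw [radB, radF_chart hN hy, prof_id (by rw [le_div_iff₀ hr2]; linarith [hy2.1, show nq y = ‖y‖ ^ 2 from rfl])
    (by rw [div_le_iff₀ hr2]; linarith [hy2.2, show nq y = ‖y‖ ^ 2 from rfl]), nq]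
  field_simp

/-- the second order quantities of the radial function -/
theorem radB_est (hN : N.Top) (hr : 0 < r) (ha : N.a < r / 7) (hb : 7 * r < N.b) (g : Met 4 M)
    {x : E4} (hx : x ∈ shell N.a N.b) (h1 : r ^ 2 / 20 < ‖x‖ ^ 2) (h2 : ‖x‖ ^ 2 < 20 * r ^ 2)
    {η : ℝ} (hη : η ≤ 1 / 100) (h : JG 1 (g.pm N.Ψ) x ‖x‖ η) :
    radB N r (N.Ψ x) = ‖x‖ ^ 2 ∧
    |g.gam (radB N r) (radB N r) (N.Ψ x) - 4 * ‖x‖ ^ 2| ≤ 128 * η * ‖x‖ ^ 2 ∧
    |g.lap (radB N r) (N.Ψ x) - 8| ≤ 1600 * η ∧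
    |g.nsq (g.hess (radB N r)) (N.Ψ x) - 16| ≤ 12800 * η := by
  have hS := radB_sm hN hr ha hb
  have he := radB_ev hN hr hx h1 h2
  have hG := hN.par.riem g
  have hx0 : 0 < ‖x‖ := hN.a_pos.trans hx.1
  refine ⟨he.eq_of_nhds, ?_, ?_, ?_⟩
  · rw [hN.par.par_gam g hS hS hx]
    have : Crest.Agent.R247.Bo84.gam (g.pm N.Ψ) (fun y => radB N r (N.Ψ y))
        (fun y => radB N r (N.Ψ y)) x = Crest.Agent.R247.Bo84.gam (g.pm N.Ψ) nq nq x := by
      simp only [Crest.Agent.R247.Bo84.gam, pd_congr _ he]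
    rw [this]; exact nq_gam hG hx h hη
  · rw [hN.par.par_lap g hS hx, (lapB_congr (EventuallyEq.refl _ _) he).eq_of_nhds]
    exact nq_lap hG hx h hη le_rfl hx0
  · rw [hN.par.par_hh g hS hx, nsq, ip, (hessT_congr (EventuallyEq.refl _ _) he).eq_of_nhds]
    exact nq_hh hG hx h hη le_rfl hx0

end Crest.Agent.N207.Rad

end
end

-- ▼ part N207/Rad/Neck2

/-!
# Row 207, block P0 (helper89): restriction of necks, `LocAt` from the distance sandwich
-/

set_option autoImplicit false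
set_option linter.unusedSectionVars false

open scoped ContDiff Topology Manifold Classical
open Set Filter
open Crest.GeometryTopology.CoordMetric Crest.GeometryTopology.ChartCurvature
  Crest.GeometryTopology.MetricFamily

noncomputable section

namespace Crest.Agent.N207.Rad

open Sk

variable {M : Type*} [TopologicalSpace M] [ChartedSpace E4 M] [IsManifold 𝓘(ℝ, E4) ∞ M]
  {N : Nk M} {a' b' r : ℝ}


theorem res_om (ha : N.a < a') (hr : a' < r) : (N.res a' b').Om r = N.Om r := by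
  ext p
  constructor
  · rintro ((h | ⟨x, hx, rfl⟩) | ⟨x, hx, rfl⟩)
    · exact Or.inl h
    · exact Or.inr ⟨x, ⟨hx.1, hx.2.trans_lt hr⟩, rfl⟩
    · exact Or.inr ⟨x, ⟨ha.trans hx.1, hx.2⟩, rfl⟩
  · rintro (h | ⟨x, hx, rfl⟩)
    · exact Or.inl (Or.inl h)
    · rcases le_or_gt ‖x‖ a' with e | e
      · exact Or.inl (Or.inr ⟨x, ⟨hx.1, e⟩, rfl⟩)
      · exact Or.inr ⟨x, ⟨e, hx.2⟩, rfl⟩

theorem res_in_sub (hr : a' < r) : (N.res a' b').In ⊆ N.Om r := by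
  rintro p (h | ⟨x, hx, rfl⟩)
  · exact Or.inl h
  · exact Or.inr ⟨x, ⟨hx.1, hx.2.trans_lt hr⟩, rfl⟩

theorem om_sub_res_in : N.Om a' ⊆ (N.res a' b').In := by
  rintro p (h | ⟨x, hx, rfl⟩)
  · exact Or.inl h
  · exact Or.inr ⟨x, ⟨hx.1, hx.2.le⟩, rfl⟩

theorem res_top (hN : N.Top) (ha : N.a < a') (hab : a' < b') (hb : b' ≤ N.b) :
    (N.res a' b').Top := by
  have hs : shell a' b' ⊆ shell N.a N.b := fun x hx => ⟨ha.trans hx.1, hx.2.trans_le hb⟩
  have ho : IsOpen (shell a' b') :=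
    (isOpen_lt continuous_const continuous_norm).inter (isOpen_lt continuous_norm continuous_const)
  refine ⟨hN.grp, hN.a_pos.trans ha, hab, hN.par.mono ho hs,
    fun x hx y hy => hN.fib x (hs hx) y (hs hy), ?_, fun r hr => ?_, fun r hr => ?_,
    hN.ne.mono subset_union_left⟩
  · rintro x hx (h | ⟨y, hy, e⟩)
    · exact hN.disj x (hs hx) h
    · obtain ⟨γ, -, e2⟩ := (hN.fib y ⟨hy.1, by linarith [hy.2]⟩ x (hs hx)).1 e
      have : ‖y‖ = ‖x‖ := (γ.norm_map _).symm.trans (congrArg norm e2)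
      have hx1 : a' < ‖x‖ := hx.1
      linarith [hy.2]
  · rw [res_om ha hr.1]
    exact hN.opn r ⟨ha.trans hr.1, hr.2.trans hb⟩
  · have hr1 : a' < r := hr.1
    have hr2 : r < b' := hr.2
    have e : (N.res a' b').In ∪ (N.res a' b').Ψ '' {x | (N.res a' b').a < ‖x‖ ∧ ‖x‖ ≤ r} =
        N.In ∪ N.Ψ '' {x | N.a < ‖x‖ ∧ ‖x‖ ≤ r} := by
      ext p
      constructor
      · rintro ((h | ⟨x, hx, rfl⟩) | ⟨x, hx, rfl⟩)
        · exact Or.inl h
        · exact Or.inr ⟨x, ⟨hx.1, hx.2.trans hr1.le⟩, rfl⟩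
        · exact Or.inr ⟨x, ⟨ha.trans hx.1, hx.2⟩, rfl⟩
      · rintro (h | ⟨x, hx, rfl⟩)
        · exact Or.inl (Or.inl h)
        · rcases le_or_gt ‖x‖ a' with e | e
          · exact Or.inl (Or.inr ⟨x, ⟨hx.1, e⟩, rfl⟩)
          · exact Or.inr ⟨x, ⟨e, hx.2⟩, rfl⟩
    rw [e]
    exact hN.cls r ⟨ha.trans hr1, hr2.trans_le hb⟩

variable [T3Space M] [ConnectedSpace M] [MeasurableSpace M] [BorelSpace M]

/-- the conclusion of `DIST` -/
def Sand (g : Met 4 M) (N : Nk M) (z : M) (η K : ℝ) : Prop :=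
  (∀ x ∈ shell N.a N.b, (1 - 4 * η) * (‖x‖ - N.a) ≤ g.d z (N.Ψ x) ∧
    g.d z (N.Ψ x) ≤ (1 + 4 * η) * ‖x‖ + K * N.a) ∧
  (∀ p ∉ N.Om N.b, (1 - 4 * η) * (N.b - N.a) ≤ g.d z p) ∧ ∀ z' ∈ N.In, g.d z z' ≤ K * N.a

theorem Sand.facts {g : Met 4 M} {η K : ℝ} {z : M} (hS : Sand g N z η K) (hN : N.Top) (hr : 0 < r)
    (hb : N.b = 8 * r) (hη : η ≤ 1 / 10000) (hη0 : 0 < η) (hK : 1 ≤ K) (ha : K * N.a ≤ η * r) :
    (∀ p ∈ N.In, g.d z p < r / 4) ∧ (∀ p ∉ N.Om N.b, 4 * r < g.d z p) ∧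
      ∀ x ∈ shell N.a N.b, |g.d z (N.Ψ x) - ‖x‖| ≤ 33 * (η * r) := by
  obtain ⟨S1, S2, S3⟩ := hS
  have ha0 := hN.a_pos
  have hηr : η * r ≤ r / 10000 := by nlinarith
  have ha1 : N.a ≤ η * r := by nlinarith
  refine ⟨fun p hp => lt_of_le_of_lt (S3 p hp) (by linarith),
    fun p hp => lt_of_lt_of_le (by rw [hb]; nlinarith) (S2 p hp), fun x hx => ?_⟩
  obtain ⟨c1, c2⟩ := S1 x hx
  have c3 : η * ‖x‖ ≤ η * (8 * r) := mul_le_mul_of_nonneg_left (hb ▸ hx.2.le) hη0.le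
  have c4 : 0 ≤ η * N.a := by positivity
  exact abs_le.2 ⟨by nlinarith, by nlinarith⟩

theorem LocAt.mono {H : HC M} {t η η' : ℝ} {z : M} {β : M → ℝ} (h : LocAt H t z η r β)
    (hη : η ≤ η') : LocAt H t z η' r β := by
  refine ⟨h.s0, h.inn, h.out, fun x h1 h2 => ?_⟩
  obtain ⟨a, b, c, d⟩ := h.mid x h1 h2
  have : η * r ^ 2 ≤ η' * r ^ 2 := by gcongr
  exact ⟨a.trans this, b.trans this, c.trans hη, d.trans hη⟩

theorem locAt_of_sand (F : Flow M) {t η K : ℝ} {z : M} (hN : N.Top) (hr : 0 < r)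
    (hb : N.b = 8 * r) (hη : η ≤ 1 / 10000) (hη0 : 0 < η) (hK : 1 ≤ K) (ha : K * N.a ≤ η * r)
    (hS : Sand (F.m t) N z η K)
    (hJ : ∀ x ∈ shell N.a N.b, JG 1 ((F.m t).pm N.Ψ) x ‖x‖ η) :
    LocAt F.hc t z (12800 * η) r (radB N r) := by
  obtain ⟨hin, hout, hch⟩ := hS.facts hN hr hb hη hη0 hK ha
  change ∀ p ∈ N.In, F.hc.d t z p < r / 4 at hin
  change ∀ p ∉ N.Om N.b, 4 * r < F.hc.d t z p at hout
  change ∀ x ∈ shell N.a N.b, |F.hc.d t z (N.Ψ x) - ‖x‖| ≤ 33 * (η * r) at hch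
  have ha0 := hN.a_pos
  have hηr : η * r ≤ r / 10000 := by nlinarith
  have ha1 : N.a ≤ η * r := by nlinarith
  have hr2 : 0 < r ^ 2 := by positivity
  refine ⟨radB_sm hN hr (by linarith) (by linarith), fun p hp => ?_, fun p hp => ?_,
    fun p h1 h2 => ?_⟩
  · rcases cases_nk N p with h | ⟨x, hx, rfl⟩ | h
    · rw [radB, radF_in hN h]; linarith
    · rw [radB, radF_chart hN hx]
      have c := (abs_le.1 (hch x hx)).1
      have : prof (‖x‖ ^ 2 / r ^ 2) ≤ 1 / 8 :=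
        prof_le (by rw [div_le_iff₀ hr2]; nlinarith [norm_nonneg x])
      nlinarith
    · linarith [hout p h]
  · rcases cases_nk N p with h | ⟨x, hx, rfl⟩ | h
    · linarith [hin p h]
    · rw [radB, radF_chart hN hx]
      have c := (abs_le.1 (hch x hx)).2
      have : 8 ≤ prof (‖x‖ ^ 2 / r ^ 2) :=
        prof_ge (by rw [le_div_iff₀ hr2]; nlinarith [norm_nonneg x])
      nlinarith
    · rw [radB, radF_out h]; linarith
  · rcases cases_nk N p with h | ⟨x, hx, rfl⟩ | h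
    · linarith [hin p h]
    · obtain ⟨c1, c2⟩ := abs_le.1 (hch x hx)
      have d1 : 24 / 100 * r ≤ ‖x‖ := by linarith
      have d2 : ‖x‖ ≤ 41 / 10 * r := by linarith
      have d3 : ‖x‖ ^ 2 ≤ 17 * r ^ 2 := by nlinarith
      obtain ⟨e1, e2, e3, e4⟩ := radB_est hN hr (by linarith) (by linarith) (F.m t) hx
        (by nlinarith) (by nlinarith) (by linarith) (hJ x hx)
      have p0 : 0 ≤ η * r ^ 2 := by positivity
      refine ⟨?_, ?_, e3.trans (by linarith), e4⟩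
      · rw [e1, sq_sub_sq, abs_mul, abs_sub_comm]
        calc _ ≤ (9 * r) * (33 * (η * r)) :=
              mul_le_mul (abs_le.2 ⟨by linarith, by linarith⟩) (hch x hx) (abs_nonneg _)
                (by positivity)
          _ ≤ _ := by nlinarith
      · rw [e1]
        refine e2.trans ?_
        have : η * ‖x‖ ^ 2 ≤ η * (17 * r ^ 2) := by gcongr
        nlinarith
    · linarith [hout p h]

end Crest.Agent.N207.Rad

end
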